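import Vale.Agent.P071.Final

namespace Vale.Agent.Results.P071.HotSpots

open Vale.Agent.P071

theorem result (Ω : Set ℂ) (ho : IsOpen Ω) (hb : Bornology.IsBounded Ω)
    (hs : IsSimplyConnected Ω) (hμ : 0 < mu1 Ω) (u : ℂ → ℝ) (hu : Eig Ω u)
    (hsm : ContDiffOn ℝ (⊤ : ℕ∞) u Ω) (hc : ContinuousOn u (closure Ω)) (hne : ∃ y ∈ Ω, u y ≠ 0) :
    ∀ x ∈ Ω, fderiv ℝ u x ≠ 0 ∧ (∃ p ∈ frontier Ω, u p < u x) ∧ ∃ p ∈ frontier Ω, u x < u p := by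
  have h : ∀ x ∈ Ω, fderiv ℝ u x ≠ 0 := fun x hx =>
    no_crit ho hb hs hμ hu (hsm.of_le (WithTop.coe_le_coe.mpr (le_top (a := (2 : ℕ∞))))) hc hne hx
  refine fun x hx => ⟨h x hx, below ho hb hc h hx, ?_⟩
  simpa using below (u := fun z => -u z) ho hb hc.neg (fun y hy => by simpa using h y hy) hx

end Vale.Agent.Results.P071.HotSpots
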